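import Vale.Agent.Lib.Helper2.P302.InfDefs
import Vale.Agent.Lib.Helper3.BinPacking

/-!
From a thirds instance to a bin packing instance.

A thirds instance is a charge function `d : ℕ → ℤ` on the indices below `n`.  The item `i`
gets the size `1 / 3 + d i / (3 M)` where `M` is larger than four times every `|d i|`, so all
sizes lie strictly between `1 / 4` and `5 / 12`: a bin holds at most three items, and three
different items fit into one bin exactly when their charges sum to at most `0`.

If at most `ν` pairwise disjoint triples fit (`TB d n ν`) and `n = 3 ν + 5`, then the optimum is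
at least `ν + 3`.  A fractional family of triples of total weight `v` (`FS d n ρ v`) gives a
fractional cover of value half of `n - v`.  Hence the difference is at least half of
`1 + v - ν`.
-/

namespace Vale.Agent.Lib.Helper9.P302Inf

open Finset
open Vale.Agent.Lib.Helper3.BinPacking
open Vale.Agent.Lib.Helper2.Inf

/-- The scale: larger than four times the absolute value of every charge below `n`. -/
def scaleM (d : ℕ → ℤ) (n : ℕ) : ℤ := 4 * (∑ i ∈ Finset.range n, |d i|) + 1

/-- The size of the item `i`. -/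
def sz (d : ℕ → ℤ) (n : ℕ) (i : ℕ) : ℚ := 1 / 3 + (d i : ℚ) / (3 * (scaleM d n : ℚ))

theorem scaleM_pos (d : ℕ → ℤ) (n : ℕ) : 0 < scaleM d n := by
  unfold scaleM
  have h : 0 ≤ ∑ i ∈ Finset.range n, |d i| := Finset.sum_nonneg (fun i _ => abs_nonneg _)
  linarith

theorem four_abs_lt (d : ℕ → ℤ) (n : ℕ) {i : ℕ} (hi : i < n) : 4 * |d i| < scaleM d n := by
  unfold scaleM
  have h := Finset.single_le_sum (f := fun i => |d i|) (fun i _ => abs_nonneg (d i))
    (Finset.mem_range.mpr hi)
  have h' : |d i| ≤ ∑ i ∈ Finset.range n, |d i| := h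
  linarith

theorem sz_gt (d : ℕ → ℤ) (n : ℕ) {i : ℕ} (hi : i < n) : 1 / 4 < sz d n i := by
  have hM := scaleM_pos d n
  have h4 := four_abs_lt d n hi
  have hMq : (0 : ℚ) < (scaleM d n : ℚ) := by exact_mod_cast hM
  have h1 : -(scaleM d n : ℚ) < 4 * (d i : ℚ) := by
    have h2 : -(scaleM d n) < 4 * d i := by
      have h3 := neg_abs_le (d i)
      linarith
    exact_mod_cast h2
  unfold sz
  have h5 : -(1 / 12 : ℚ) < (d i : ℚ) / (3 * (scaleM d n : ℚ)) := by
    rw [lt_div_iff₀ (by positivity)]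
    linarith
  linarith

theorem sz_le (d : ℕ → ℤ) (n : ℕ) {i : ℕ} (hi : i < n) : sz d n i ≤ 1 / 2 := by
  have hM := scaleM_pos d n
  have h4 := four_abs_lt d n hi
  have hMq : (0 : ℚ) < (scaleM d n : ℚ) := by exact_mod_cast hM
  have h1 : 4 * (d i : ℚ) < (scaleM d n : ℚ) := by
    have h2 : 4 * d i < scaleM d n := by
      have h3 := le_abs_self (d i)
      linarith
    exact_mod_cast h2
  unfold sz
  have h5 : (d i : ℚ) / (3 * (scaleM d n : ℚ)) < 1 / 12 := by
    rw [div_lt_iff₀ (by positivity)]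
    linarith
  linarith

theorem sz_sum (d : ℕ → ℤ) (n : ℕ) (T : Finset ℕ) :
    ∑ i ∈ T, sz d n i
      = (T.card : ℚ) / 3 + ((∑ i ∈ T, d i : ℤ) : ℚ) / (3 * (scaleM d n : ℚ)) := by
  unfold sz
  rw [Finset.sum_add_distrib, Finset.sum_const, ← Finset.sum_div, nsmul_eq_mul]
  push_cast
  ring

theorem sz_sum3 (d : ℕ → ℤ) (n : ℕ) (x y z : ℕ) :
    sz d n x + sz d n y + sz d n z
      = 1 + ((d x + d y + d z : ℤ) : ℚ) / (3 * (scaleM d n : ℚ)) := by
  unfold sz
  push_cast
  ring

/-- The weighted indicator sum over a finite set of rationals. -/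
theorem sum_ite_size (S : Finset ℚ) {p : ℚ} (hp : p ∈ S) :
    ∑ σ ∈ S, σ * (((if p = σ then 1 else 0 : ℕ) : ℕ) : ℚ) = p := by
  rw [Finset.sum_eq_single p]
  · simp
  · intro σ _ hne
    rw [if_neg (fun h => hne h.symm)]
    simp
  · intro h
    exact absurd hp h

/-- Summing the indicator of `t` over the items of size `σ`. -/
theorem sum_ind_filter (d : ℕ → ℤ) (n : ℕ) {t : ℕ} (ht : t < n) (σ : ℚ) :
    ∑ i ∈ (Finset.univ : Finset (Fin n)).filter (fun i : Fin n => sz d n (i : ℕ) = σ),
        ind t (i : ℕ)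
      = (((if sz d n t = σ then 1 else 0 : ℕ) : ℕ) : ℝ) := by
  rw [Finset.sum_filter, Finset.sum_eq_single (⟨t, ht⟩ : Fin n)]
  · simp only [ind]
    split_ifs <;> simp
  · intro i _ hne
    have h1 : t ≠ (i : ℕ) := by
      intro h
      apply hne
      exact Fin.ext h.symm
    simp [ind, h1]
  · intro h
    exact absurd (Finset.mem_univ _) h

/-- Summing the indicator of `t` over all items. -/
theorem sum_ind_univ (n : ℕ) {t : ℕ} (ht : t < n) :
    ∑ i : Fin n, ind t (i : ℕ) = 1 := by
  rw [Finset.sum_eq_single (⟨t, ht⟩ : Fin n)]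
  · simp [ind]
  · intro i _ hne
    have h1 : t ≠ (i : ℕ) := by
      intro h
      apply hne
      exact Fin.ext h.symm
    simp [ind, h1]
  · intro h
    exact absurd (Finset.mem_univ _) h

/-- A fractional family of triples of total weight `v` yields a fractional cover of value
half of `n - v`. -/
theorem lp_le_of_FS (d : ℕ → ℤ) (n : ℕ) (ρ : ℕ → ℝ) (v : ℝ) (hFS : FS d n ρ v) :
    lp (fun i : Fin n => sz d n (i : ℕ)) ≤ ((n : ℝ) - v) / 2 := by
  classical
  obtain ⟨J, instJ, x, y, z, wgt, hw0, hxyz, hitem, hρ0, hv⟩ := hFS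
  set a : Fin n → ℚ := fun i => sz d n (i : ℕ) with ha
  have hmem : ∀ t, t < n → sz d n t ∈ sizes a := by
    intro t ht
    unfold sizes
    rw [Finset.mem_image]
    exact ⟨⟨t, ht⟩, Finset.mem_univ _, rfl⟩
  set cfgS : J ⊕ Fin n → ℚ → ℕ := Sum.elim
    (fun j σ => (if sz d n (x j) = σ then 1 else 0) + (if sz d n (y j) = σ then 1 else 0)
      + (if sz d n (z j) = σ then 1 else 0))
    (fun i σ => if a i = σ then 2 else 0) with hcfgS
  set wS : J ⊕ Fin n → ℝ := Sum.elim wgt (fun i => ρ (i : ℕ) / 2) with hwS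
  set e := Fintype.equivFin (J ⊕ Fin n) with he
  have hw : ∀ q, 0 ≤ wS q := by
    rintro (j | i)
    · exact hw0 j
    · have := hρ0 (i : ℕ)
      simp only [hwS, Sum.elim_inr]
      linarith
  have hcfg : ∀ q, IsConfig a (cfgS q) := by
    rintro (j | i)
    · obtain ⟨hx, hy, hz, hd⟩ := hxyz j
      refine ⟨?_, ?_⟩
      · intro σ hσ
        have h1 : sz d n (x j) ≠ σ := fun h => hσ (h ▸ hmem _ hx)
        have h2 : sz d n (y j) ≠ σ := fun h => hσ (h ▸ hmem _ hy)
        have h3 : sz d n (z j) ≠ σ := fun h => hσ (h ▸ hmem _ hz)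
        simp [hcfgS, h1, h2, h3]
      · simp only [hcfgS, Sum.elim_inl]
        have e1 : ∀ σ : ℚ, σ * (((if sz d n (x j) = σ then 1 else 0)
              + (if sz d n (y j) = σ then 1 else 0) + (if sz d n (z j) = σ then 1 else 0) : ℕ) : ℚ)
            = σ * (((if sz d n (x j) = σ then 1 else 0 : ℕ) : ℕ) : ℚ)
              + σ * (((if sz d n (y j) = σ then 1 else 0 : ℕ) : ℕ) : ℚ)
              + σ * (((if sz d n (z j) = σ then 1 else 0 : ℕ) : ℕ) : ℚ) := by
          intro σ
          push_cast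
          ring
        rw [Finset.sum_congr rfl (fun σ _ => e1 σ), Finset.sum_add_distrib,
          Finset.sum_add_distrib, sum_ite_size _ (hmem _ hx), sum_ite_size _ (hmem _ hy),
          sum_ite_size _ (hmem _ hz), sz_sum3]
        have hMq : (0 : ℚ) < (scaleM d n : ℚ) := by exact_mod_cast scaleM_pos d n
        have h5 : ((d (x j) + d (y j) + d (z j) : ℤ) : ℚ) ≤ 0 := by exact_mod_cast hd
        have h6 : ((d (x j) + d (y j) + d (z j) : ℤ) : ℚ) / (3 * (scaleM d n : ℚ)) ≤ 0 :=
          div_nonpos_of_nonpos_of_nonneg h5 (by positivity)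
        linarith
    · refine ⟨?_, ?_⟩
      · intro σ hσ
        have h1 : a i ≠ σ := fun h => hσ (h ▸ hmem _ i.2)
        simp [hcfgS, h1]
      · simp only [hcfgS, Sum.elim_inr]
        have e1 : ∀ σ : ℚ, σ * (((if a i = σ then 2 else 0 : ℕ) : ℕ) : ℚ)
            = 2 * (σ * (((if a i = σ then 1 else 0 : ℕ) : ℕ) : ℚ)) := by
          intro σ
          split_ifs <;> push_cast <;> ring
        rw [Finset.sum_congr rfl (fun σ _ => e1 σ), ← Finset.mul_sum,
          sum_ite_size _ (hmem _ i.2)]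
        have h7 : sz d n (i : ℕ) ≤ 1 / 2 := sz_le d n i.2
        have h8 : a i ≤ 1 / 2 := h7
        linarith
  have hU : ∀ i : Fin n,
      ∑ j, (ind (x j) (i : ℕ) + ind (y j) (i : ℕ) + ind (z j) (i : ℕ)) * wgt j
        = 1 - ρ (i : ℕ) := by
    intro i
    have := hitem (i : ℕ) i.2
    linarith
  have hcov : ∀ σ ∈ sizes a, (mult a σ : ℝ) ≤ ∑ q, (cfgS q σ : ℝ) * wS q := by
    intro σ _
    rw [Fintype.sum_sum_type]
    simp only [hcfgS, hwS, Sum.elim_inl, Sum.elim_inr]
    set filt : Finset (Fin n) := Finset.univ.filter (fun i => a i = σ) with hfilt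
    have hfirst : ∑ j, (((if sz d n (x j) = σ then 1 else 0)
          + (if sz d n (y j) = σ then 1 else 0) + (if sz d n (z j) = σ then 1 else 0) : ℕ) : ℝ)
          * wgt j = ∑ i ∈ filt, (1 - ρ (i : ℕ)) := by
      rw [← Finset.sum_congr rfl (fun i _ => hU i), Finset.sum_comm]
      apply Finset.sum_congr rfl
      intro j _
      obtain ⟨hx, hy, hz, _⟩ := hxyz j
      rw [← Finset.sum_mul]
      congr 1
      rw [Finset.sum_add_distrib, Finset.sum_add_distrib, hfilt]
      have e1 := sum_ind_filter d n hx σ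
      have e2 := sum_ind_filter d n hy σ
      have e3 := sum_ind_filter d n hz σ
      simp only [ha]
      rw [e1, e2, e3]
      push_cast
      ring
    have hsecond : ∑ i : Fin n, (((if a i = σ then 2 else 0 : ℕ) : ℕ) : ℝ) * (ρ (i : ℕ) / 2)
        = ∑ i ∈ filt, ρ (i : ℕ) := by
      rw [hfilt, Finset.sum_filter]
      apply Finset.sum_congr rfl
      intro i _
      split_ifs <;> push_cast <;> ring
    rw [hfirst, hsecond, ← Finset.sum_add_distrib]
    have h1 : ∑ i ∈ filt, (1 - ρ (i : ℕ) + ρ (i : ℕ)) = (filt.card : ℝ) := by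
      simp
    rw [h1]
    unfold mult
    rw [hfilt]
  have hcover : IsFracCover a (Fintype.card (J ⊕ Fin n)) (fun q => cfgS (e.symm q))
      (fun q => wS (e.symm q)) := by
    refine ⟨fun q => hw _, fun q => hcfg _, ?_⟩
    intro σ hσ
    have h1 := hcov σ hσ
    have h2 : ∑ q, (cfgS (e.symm q) σ : ℝ) * wS (e.symm q) = ∑ q, (cfgS q σ : ℝ) * wS q :=
      Equiv.sum_comp e.symm (fun q => (cfgS q σ : ℝ) * wS q)
    rw [h2]
    exact h1
  have h := lp_le_of_cover a _ _ _ hcover
  have h2 : ∑ q, wS (e.symm q) = ∑ q, wS q := Equiv.sum_comp e.symm wS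
  rw [h2, Fintype.sum_sum_type] at h
  simp only [hwS, Sum.elim_inl, Sum.elim_inr] at h
  have hρsum : ∑ i : Fin n, ρ (i : ℕ) = (n : ℝ) - 3 * v := by
    have h3 : ∑ i : Fin n, (1 - ρ (i : ℕ)) = 3 * v := by
      rw [← Finset.sum_congr rfl (fun i _ => hU i), Finset.sum_comm, ← hv, Finset.mul_sum]
      apply Finset.sum_congr rfl
      intro j _
      obtain ⟨hx, hy, hz, _⟩ := hxyz j
      rw [← Finset.sum_mul, Finset.sum_add_distrib, Finset.sum_add_distrib,
        sum_ind_univ n hx, sum_ind_univ n hy, sum_ind_univ n hz]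
      ring
    rw [Finset.sum_sub_distrib] at h3
    simp only [Finset.sum_const, Finset.card_univ, Fintype.card_fin, nsmul_eq_mul, mul_one] at h3
    linarith
  rw [← Finset.sum_div, hρsum, hv] at h
  linarith

/-- If at most `ν` pairwise disjoint triples fit and there are `3 ν + 5` items, then at least
`ν + 3` bins are needed. -/
theorem opt_ge_of_TB (d : ℕ → ℤ) (n ν : ℕ) (hn : n = 3 * ν + 5) (hTB : TB d n ν) :
    ν + 3 ≤ opt (fun i : Fin n => sz d n (i : ℕ)) := by
  classical
  set a : Fin n → ℚ := fun i => sz d n (i : ℕ) with ha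
  have ha1 : ∀ i, a i ≤ 1 := fun i => le_trans (sz_le d n i.2) (by norm_num)
  apply succ_le_opt a ha1 (ν + 2)
  rintro ⟨f, hf⟩
  set F : Fin (ν + 2) → Finset (Fin n) := fun b => univ.filter (fun i => f i = b) with hF
  set T : Fin (ν + 2) → Finset ℕ := fun b => (F b).map Fin.valEmbedding with hT
  have hsumF : ∀ b, ∑ i ∈ F b, a i ≤ 1 := hf
  have hcard : ∀ b, (F b).card ≤ 3 := by
    intro b
    by_contra hcon
    have h4 : 4 ≤ (F b).card := by omega
    have hne : (F b).Nonempty := Finset.card_pos.mp (by omega)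
    have h1 : ∑ i ∈ F b, (1 / 4 : ℚ) < ∑ i ∈ F b, a i :=
      Finset.sum_lt_sum_of_nonempty hne (fun i _ => sz_gt d n i.2)
    rw [Finset.sum_const, nsmul_eq_mul] at h1
    have h2 := hsumF b
    have h3 : (4 : ℚ) ≤ ((F b).card : ℚ) := by exact_mod_cast h4
    linarith
  have htot : ∑ b, (F b).card = n := by
    have h1 := Finset.card_eq_sum_card_fiberwise (s := (univ : Finset (Fin n)))
      (t := (univ : Finset (Fin (ν + 2)))) (f := f) (fun x _ => mem_univ _)
    rw [Finset.card_univ, Fintype.card_fin] at h1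
    exact h1.symm
  set S : Finset (Fin (ν + 2)) := univ.filter (fun b => (F b).card = 3) with hS
  have hTcard : ∀ b ∈ S, (T b).card = 3 := by
    intro b hb
    simp only [hS, mem_filter, mem_univ, true_and] at hb
    simp only [hT, card_map]
    exact hb
  have hTdisj : ∀ b b', b ≠ b' → Disjoint (T b) (T b') := by
    intro b b' hbb
    simp only [hT]
    rw [Finset.disjoint_map]
    simp only [hF]
    rw [Finset.disjoint_filter]
    intro x _ h1 h2
    exact hbb (h1.symm.trans h2)
  have hTsub : ∀ b, T b ⊆ Finset.range n := by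
    intro b j hj
    simp only [hT, mem_map, Fin.valEmbedding_apply] at hj
    obtain ⟨i, _, rfl⟩ := hj
    exact Finset.mem_range.mpr i.2
  have hTsum : ∀ b ∈ S, ∑ i ∈ T b, d i ≤ 0 := by
    intro b hb
    have h1 : ∑ i ∈ T b, sz d n i ≤ 1 := by
      simp only [hT]
      rw [Finset.sum_map]
      exact hsumF b
    rw [sz_sum, hTcard b hb] at h1
    have hMq : (0 : ℚ) < (scaleM d n : ℚ) := by exact_mod_cast scaleM_pos d n
    have h3 : ((∑ i ∈ T b, d i : ℤ) : ℚ) ≤ 0 := by
      by_contra hpos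
      rw [not_le] at hpos
      have h4 := div_pos hpos (by positivity : (0 : ℚ) < 3 * (scaleM d n : ℚ))
      have e3 : ((3 : ℕ) : ℚ) / 3 = 1 := by norm_num
      rw [e3] at h1
      linarith
    exact_mod_cast h3
  have hinj : Set.InjOn T (S : Set (Fin (ν + 2))) := by
    intro b hb b' hb' hTT
    by_contra hne
    have hd := hTdisj b b' hne
    rw [hTT] at hd
    have h0 : T b' = ∅ := Finset.disjoint_self_iff_empty (T b') |>.mp hd
    have h3 := hTcard b' hb'
    rw [h0] at h3
    simp at h3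
  have hP := hTB (S.image T) (by
      intro t ht
      obtain ⟨b, hb, rfl⟩ := Finset.mem_image.mp ht
      exact ⟨hTcard b hb, hTsub b, hTsum b hb⟩) (by
      intro t ht t' ht' hne
      obtain ⟨b, hb, rfl⟩ := Finset.mem_image.mp ht
      obtain ⟨b', hb', rfl⟩ := Finset.mem_image.mp ht'
      exact hTdisj b b' (fun h => hne (by rw [h])))
  rw [Finset.card_image_of_injOn hinj] at hP
  have h1 : ∑ b, (F b).card ≤ ∑ b : Fin (ν + 2), (2 + if (F b).card = 3 then 1 else 0) := by
    apply Finset.sum_le_sum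
    intro b _
    have := hcard b
    split_ifs with h3 <;> omega
  rw [Finset.sum_add_distrib, Finset.sum_boole, htot] at h1
  simp only [Finset.sum_const, Finset.card_univ, Fintype.card_fin, smul_eq_mul,
    Nat.cast_id] at h1
  have hSc : (univ.filter (fun b : Fin (ν + 2) => (F b).card = 3)).card = S.card := rfl
  rw [hSc] at h1
  omega

/-- A thirds instance with `n = 3 ν + 5` items, at most `ν` pairwise disjoint fitting triples
and a fractional family of triples of total weight `v` gives a bin packing instance with all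
sizes larger than `1/4` and at most `1/2` whose optimum exceeds the value of the configuration
linear program by at least half of `1 + v - ν`. -/
theorem gap_of_thirds (d : ℕ → ℤ) (n ν : ℕ) (ρ : ℕ → ℝ) (v : ℝ)
    (hn : n = 3 * ν + 5) (hTB : TB d n ν) (hFS : FS d n ρ v) :
    ∃ a : Fin n → ℚ, (∀ i, 1 / 4 < a i ∧ a i ≤ 1 / 2) ∧
      ((1 + v - ν) / 2 : ℝ) ≤ (opt a : ℝ) - lp a := by
  refine ⟨fun i => sz d n (i : ℕ), fun i => ⟨sz_gt d n i.2, sz_le d n i.2⟩, ?_⟩
  have h1 := opt_ge_of_TB d n ν hn hTB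
  have h2 := lp_le_of_FS d n ρ v hFS
  have h3 : ((ν + 3 : ℕ) : ℝ) ≤ (opt (fun i : Fin n => sz d n (i : ℕ)) : ℝ) := by
    exact_mod_cast h1
  have h4 : (n : ℝ) = 3 * (ν : ℝ) + 5 := by
    rw [hn]
    push_cast
    ring
  push_cast at h3
  linarith

end Vale.Agent.Lib.Helper9.P302Inf
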