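import Vale.Agent.Lib.Helper9.P302.InfGap

/-!
From a thirds instance to a bin packing instance, for an arbitrary odd surplus.

This is the version of `gap_of_thirds` for `n = 3 ν + 2 r + 1` items (the file `InfGap` treats
`r = 2`).  If at most `ν` pairwise disjoint triples fit, then at least `ν + r + 1` bins are
needed, since a bin holds at most three items and holds three only if their charges sum to at
most `0`.  Together with the fractional cover of value half of `n - v` the difference between
the optimum and the value of the configuration linear program is again at least half of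
`1 + v - ν`, whatever `r` is.
-/

namespace Vale.Agent.Lib.Helper9.P302Inf

open Finset
open Vale.Agent.Lib.Helper3.BinPacking
open Vale.Agent.Lib.Helper2.Inf

/-- If at most `ν` pairwise disjoint triples fit and there are `3 ν + 2 r + 1` items, then the
items cannot be packed into `ν + r` bins. -/
theorem no_packing_of_TB_gen (d : ℕ → ℤ) (n ν r : ℕ) (hn : n = 3 * ν + 2 * r + 1)
    (hTB : TB d n ν) :
    ¬ ∃ f : Fin n → Fin (ν + r), IsPacking (fun i : Fin n => sz d n (i : ℕ)) (ν + r) f := by
  classical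
  set a : Fin n → ℚ := fun i => sz d n (i : ℕ) with ha
  rintro ⟨f, hf⟩
  set F : Fin (ν + r) → Finset (Fin n) := fun b => univ.filter (fun i => f i = b) with hF
  set T : Fin (ν + r) → Finset ℕ := fun b => (F b).map Fin.valEmbedding with hT
  have hsumF : ∀ b, ∑ i ∈ F b, a i ≤ 1 := hf
  have hcard : ∀ b, (F b).card ≤ 3 := by
    intro b
    by_contra hcon
    have h4 : 4 ≤ (F b).card := by omega
    have hne : (F b).Nonempty := Finset.card_pos.mp (by omega)
    have h1 : ∑ i ∈ F b, (1 / 4 : ℚ) < ∑ i ∈ F b, a i :=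
      Finset.sum_lt_sum_of_nonempty hne (fun i _ => sz_gt d n i.2)
    rw [Finset.sum_const, nsmul_eq_mul] at h1
    have h2 := hsumF b
    have h3 : (4 : ℚ) ≤ ((F b).card : ℚ) := by exact_mod_cast h4
    linarith
  have htot : ∑ b, (F b).card = n := by
    have h1 := Finset.card_eq_sum_card_fiberwise (s := (univ : Finset (Fin n)))
      (t := (univ : Finset (Fin (ν + r)))) (f := f) (fun x _ => mem_univ _)
    rw [Finset.card_univ, Fintype.card_fin] at h1
    exact h1.symm
  set S : Finset (Fin (ν + r)) := univ.filter (fun b => (F b).card = 3) with hS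
  have hTcard : ∀ b ∈ S, (T b).card = 3 := by
    intro b hb
    simp only [hS, mem_filter, mem_univ, true_and] at hb
    simp only [hT, card_map]
    exact hb
  have hTdisj : ∀ b b', b ≠ b' → Disjoint (T b) (T b') := by
    intro b b' hbb
    simp only [hT]
    rw [Finset.disjoint_map]
    simp only [hF]
    rw [Finset.disjoint_filter]
    intro x _ h1 h2
    exact hbb (h1.symm.trans h2)
  have hTsub : ∀ b, T b ⊆ Finset.range n := by
    intro b j hj
    simp only [hT, mem_map, Fin.valEmbedding_apply] at hj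
    obtain ⟨i, _, rfl⟩ := hj
    exact Finset.mem_range.mpr i.2
  have hTsum : ∀ b ∈ S, ∑ i ∈ T b, d i ≤ 0 := by
    intro b hb
    have h1 : ∑ i ∈ T b, sz d n i ≤ 1 := by
      simp only [hT]
      rw [Finset.sum_map]
      exact hsumF b
    rw [sz_sum, hTcard b hb] at h1
    have hMq : (0 : ℚ) < (scaleM d n : ℚ) := by exact_mod_cast scaleM_pos d n
    have h3 : ((∑ i ∈ T b, d i : ℤ) : ℚ) ≤ 0 := by
      by_contra hpos
      rw [not_le] at hpos
      have h4 := div_pos hpos (by positivity : (0 : ℚ) < 3 * (scaleM d n : ℚ))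
      have e3 : ((3 : ℕ) : ℚ) / 3 = 1 := by norm_num
      rw [e3] at h1
      linarith
    exact_mod_cast h3
  have hinj : Set.InjOn T (S : Set (Fin (ν + r))) := by
    intro b hb b' hb' hTT
    by_contra hne
    have hd := hTdisj b b' hne
    rw [hTT] at hd
    have h0 : T b' = ∅ := Finset.disjoint_self_iff_empty (T b') |>.mp hd
    have h3 := hTcard b' hb'
    rw [h0] at h3
    simp at h3
  have hP := hTB (S.image T) (by
      intro t ht
      obtain ⟨b, hb, rfl⟩ := Finset.mem_image.mp ht
      exact ⟨hTcard b hb, hTsub b, hTsum b hb⟩) (by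
      intro t ht t' ht' hne
      obtain ⟨b, hb, rfl⟩ := Finset.mem_image.mp ht
      obtain ⟨b', hb', rfl⟩ := Finset.mem_image.mp ht'
      exact hTdisj b b' (fun h => hne (by rw [h])))
  rw [Finset.card_image_of_injOn hinj] at hP
  have h1 : ∑ b, (F b).card ≤ ∑ b : Fin (ν + r), (2 + if (F b).card = 3 then 1 else 0) := by
    apply Finset.sum_le_sum
    intro b _
    have := hcard b
    split_ifs with h3 <;> omega
  rw [Finset.sum_add_distrib, Finset.sum_boole, htot] at h1
  simp only [Finset.sum_const, Finset.card_univ, Fintype.card_fin, smul_eq_mul,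
    Nat.cast_id] at h1
  have hSc : (univ.filter (fun b : Fin (ν + r) => (F b).card = 3)).card = S.card := rfl
  rw [hSc] at h1
  omega

/-- If at most `ν` pairwise disjoint triples fit and there are `3 ν + 2 r + 1` items, then at
least `ν + r + 1` bins are needed. -/
theorem opt_ge_of_TB_gen (d : ℕ → ℤ) (n ν r : ℕ) (hn : n = 3 * ν + 2 * r + 1)
    (hTB : TB d n ν) :
    ν + r + 1 ≤ opt (fun i : Fin n => sz d n (i : ℕ)) := by
  have ha1 : ∀ i : Fin n, sz d n (i : ℕ) ≤ 1 :=
    fun i => le_trans (sz_le d n i.2) (by norm_num)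
  exact succ_le_opt (fun i : Fin n => sz d n (i : ℕ)) ha1 (ν + r)
    (no_packing_of_TB_gen d n ν r hn hTB)

/-- A thirds instance with `n = 3 ν + 2 r + 1` items, at most `ν` pairwise disjoint fitting
triples and a fractional family of triples of total weight `v` gives a bin packing instance with
all sizes larger than `1/4` and at most `1/2` whose optimum exceeds the value of the
configuration linear program by at least half of `1 + v - ν`. -/
theorem gap_of_thirds_gen (d : ℕ → ℤ) (n ν r : ℕ) (ρ : ℕ → ℝ) (v : ℝ)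
    (hn : n = 3 * ν + 2 * r + 1) (hTB : TB d n ν) (hFS : FS d n ρ v) :
    ∃ a : Fin n → ℚ, (∀ i, 1 / 4 < a i ∧ a i ≤ 1 / 2) ∧
      ((1 + v - ν) / 2 : ℝ) ≤ (opt a : ℝ) - lp a := by
  refine ⟨fun i => sz d n (i : ℕ), fun i => ⟨sz_gt d n i.2, sz_le d n i.2⟩, ?_⟩
  have h1 := opt_ge_of_TB_gen d n ν r hn hTB
  have h2 := lp_le_of_FS d n ρ v hFS
  have h3 : ((ν + r + 1 : ℕ) : ℝ) ≤ (opt (fun i : Fin n => sz d n (i : ℕ)) : ℝ) := by
    exact_mod_cast h1
  have h4 : (n : ℝ) = 3 * (ν : ℝ) + 2 * (r : ℝ) + 1 := by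
    rw [hn]
    push_cast
    ring
  push_cast at h3
  linarith

/-- The case of seven surplus items: `n = 3 ν + 7`. -/
theorem gap_of_thirds7 (d : ℕ → ℤ) (n ν : ℕ) (ρ : ℕ → ℝ) (v : ℝ)
    (hn : n = 3 * ν + 7) (hTB : TB d n ν) (hFS : FS d n ρ v) :
    ∃ a : Fin n → ℚ, (∀ i, 1 / 4 < a i ∧ a i ≤ 1 / 2) ∧
      ((1 + v - ν) / 2 : ℝ) ≤ (opt a : ℝ) - lp a :=
  gap_of_thirds_gen d n ν 3 ρ v (by omega) hTB hFS

/-- The case of seven surplus items: at least `ν + 4` bins are needed. -/
theorem opt_ge_of_TB7 (d : ℕ → ℤ) (n ν : ℕ) (hn : n = 3 * ν + 7) (hTB : TB d n ν) :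
    ν + 4 ≤ opt (fun i : Fin n => sz d n (i : ℕ)) :=
  opt_ge_of_TB_gen d n ν 3 (by omega) hTB

end Vale.Agent.Lib.Helper9.P302Inf
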