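import Vale.Agent.Lib.Helper2.P302.InfFS

/-!
Counting identities for a fractional family of pairs in bins: the number of items is twice the
total weight plus the unused fraction, and the total weight is at most the number of bins.
-/

namespace Vale.Agent.Lib.Helper9.P302Join

open Finset
open Vale.Agent.Lib.Helper2.Inf

/-- The number of items of a gadget is twice the total weight of a fractional family of pairs
plus the unused fraction of its distinguished item. -/
theorem fracPairs_count (G : Gadget) (ts r : ℝ) (jk : ℕ) (h : G.FracPairs ts r jk)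
    (hjk : jk < G.N) : (G.N : ℝ) = 2 * ts + r := by
  obtain ⟨J, _, bin, i1, i2, wgt, hw, hval, hbin, hitem, htot⟩ := h
  have h1 : ∑ i ∈ range G.N, ∑ j, (ind (i1 j) i + ind (i2 j) i) * wgt j =
      ∑ i ∈ range G.N, (1 - (if i = jk then r else 0)) :=
    Finset.sum_congr rfl (fun i hi => hitem i (Finset.mem_range.1 hi))
  rw [Finset.sum_comm] at h1
  have h2 : ∑ j, ∑ i ∈ range G.N, (ind (i1 j) i + ind (i2 j) i) * wgt j = ∑ j, 2 * wgt j := by
    apply Finset.sum_congr rfl
    intro j _
    rw [← Finset.sum_mul, Finset.sum_add_distrib, sum_ind_range G.N _ (hval j).2.1,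
      sum_ind_range G.N _ (hval j).2.2.1]
    norm_num
  rw [h2, ← Finset.mul_sum, htot, Finset.sum_sub_distrib, Finset.sum_ite_eq',
    if_pos (Finset.mem_range.2 hjk)] at h1
  simp only [Finset.sum_const, Finset.card_range, nsmul_eq_mul, mul_one] at h1
  linarith

/-- The total weight of a fractional family of pairs in bins is at most the number of bins. -/
theorem fracPairs_le_m (G : Gadget) (ts r : ℝ) (jk : ℕ) (h : G.FracPairs ts r jk) :
    ts ≤ G.m := by
  obtain ⟨J, _, bin, i1, i2, wgt, hw, hval, hbin, hitem, htot⟩ := h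
  have h1 : ∑ b ∈ range G.m, ∑ j, ind (bin j) b * wgt j ≤ ∑ b ∈ range G.m, (1 : ℝ) :=
    Finset.sum_le_sum (fun b hb => hbin b (Finset.mem_range.1 hb))
  rw [Finset.sum_comm] at h1
  have h2 : ∑ j, ∑ b ∈ range G.m, ind (bin j) b * wgt j = ∑ j, wgt j := by
    apply Finset.sum_congr rfl
    intro j _
    rw [← Finset.sum_mul, sum_ind_range G.m _ (hval j).1, one_mul]
  rw [h2, htot] at h1
  simp only [Finset.sum_const, Finset.card_range, nsmul_eq_mul, mul_one] at h1
  exact h1

/-- The total weight of a fractional family of pairs in bins is nonnegative. -/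
theorem fracPairs_nonneg (G : Gadget) (ts r : ℝ) (jk : ℕ) (h : G.FracPairs ts r jk) :
    0 ≤ ts := by
  obtain ⟨J, _, bin, i1, i2, wgt, hw, hval, hbin, hitem, htot⟩ := h
  rw [← htot]
  exact Finset.sum_nonneg (fun j _ => hw j)

end Vale.Agent.Lib.Helper9.P302Join
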