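import Vale.Agent.Lib.Helper9.P302.InfGap
import Vale.Agent.Lib.Helper2.P302.InfMain

/-!
The family of instances with explicit witnesses: for every level there is an instance with all
sizes larger than `1/4` and at most `1/2`, a number `K` such that the items cannot be packed
into `K` or fewer bins, and a feasible fractional solution of the configuration linear program
whose value is at most `K + 1 - (5/4 - ε)`.
-/

namespace Vale.Agent.Lib.Helper9.P302Inf

open Finset
open Vale.Agent.Lib.Helper3.BinPacking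
open Vale.Agent.Lib.Helper2.Inf

/-- A fractional family of triples of total weight `v` yields a fractional cover whose value is
exactly half of `n - v`. -/
theorem cover_of_FS (d : ℕ → ℤ) (n : ℕ) (ρ : ℕ → ℝ) (v : ℝ) (hFS : FS d n ρ v) :
    ∃ (m : ℕ) (cfg : Fin m → ℚ → ℕ) (w : Fin m → ℝ),
      IsFracCover (fun i : Fin n => sz d n (i : ℕ)) m cfg w ∧
        ∑ j, w j = ((n : ℝ) - v) / 2 := by
  classical
  obtain ⟨J, instJ, x, y, z, wgt, hw0, hxyz, hitem, hρ0, hv⟩ := hFS
  set a : Fin n → ℚ := fun i => sz d n (i : ℕ) with ha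
  have hmem : ∀ t, t < n → sz d n t ∈ sizes a := by
    intro t ht
    unfold sizes
    rw [Finset.mem_image]
    exact ⟨⟨t, ht⟩, Finset.mem_univ _, rfl⟩
  set cfgS : J ⊕ Fin n → ℚ → ℕ := Sum.elim
    (fun j σ => (if sz d n (x j) = σ then 1 else 0) + (if sz d n (y j) = σ then 1 else 0)
      + (if sz d n (z j) = σ then 1 else 0))
    (fun i σ => if a i = σ then 2 else 0) with hcfgS
  set wS : J ⊕ Fin n → ℝ := Sum.elim wgt (fun i => ρ (i : ℕ) / 2) with hwS
  set e := Fintype.equivFin (J ⊕ Fin n) with he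
  have hw : ∀ q, 0 ≤ wS q := by
    rintro (j | i)
    · exact hw0 j
    · have := hρ0 (i : ℕ)
      simp only [hwS, Sum.elim_inr]
      linarith
  have hcfg : ∀ q, IsConfig a (cfgS q) := by
    rintro (j | i)
    · obtain ⟨hx, hy, hz, hd⟩ := hxyz j
      refine ⟨?_, ?_⟩
      · intro σ hσ
        have h1 : sz d n (x j) ≠ σ := fun h => hσ (h ▸ hmem _ hx)
        have h2 : sz d n (y j) ≠ σ := fun h => hσ (h ▸ hmem _ hy)
        have h3 : sz d n (z j) ≠ σ := fun h => hσ (h ▸ hmem _ hz)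
        simp [hcfgS, h1, h2, h3]
      · simp only [hcfgS, Sum.elim_inl]
        have e1 : ∀ σ : ℚ, σ * (((if sz d n (x j) = σ then 1 else 0)
              + (if sz d n (y j) = σ then 1 else 0) + (if sz d n (z j) = σ then 1 else 0) : ℕ) : ℚ)
            = σ * (((if sz d n (x j) = σ then 1 else 0 : ℕ) : ℕ) : ℚ)
              + σ * (((if sz d n (y j) = σ then 1 else 0 : ℕ) : ℕ) : ℚ)
              + σ * (((if sz d n (z j) = σ then 1 else 0 : ℕ) : ℕ) : ℚ) := by
          intro σ
          push_cast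
          ring
        rw [Finset.sum_congr rfl (fun σ _ => e1 σ), Finset.sum_add_distrib,
          Finset.sum_add_distrib, sum_ite_size _ (hmem _ hx), sum_ite_size _ (hmem _ hy),
          sum_ite_size _ (hmem _ hz), sz_sum3]
        have hMq : (0 : ℚ) < (scaleM d n : ℚ) := by exact_mod_cast scaleM_pos d n
        have h5 : ((d (x j) + d (y j) + d (z j) : ℤ) : ℚ) ≤ 0 := by exact_mod_cast hd
        have h6 : ((d (x j) + d (y j) + d (z j) : ℤ) : ℚ) / (3 * (scaleM d n : ℚ)) ≤ 0 :=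
          div_nonpos_of_nonpos_of_nonneg h5 (by positivity)
        linarith
    · refine ⟨?_, ?_⟩
      · intro σ hσ
        have h1 : a i ≠ σ := fun h => hσ (h ▸ hmem _ i.2)
        simp [hcfgS, h1]
      · simp only [hcfgS, Sum.elim_inr]
        have e1 : ∀ σ : ℚ, σ * (((if a i = σ then 2 else 0 : ℕ) : ℕ) : ℚ)
            = 2 * (σ * (((if a i = σ then 1 else 0 : ℕ) : ℕ) : ℚ)) := by
          intro σ
          split_ifs <;> push_cast <;> ring
        rw [Finset.sum_congr rfl (fun σ _ => e1 σ), ← Finset.mul_sum,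
          sum_ite_size _ (hmem _ i.2)]
        have h7 : sz d n (i : ℕ) ≤ 1 / 2 := sz_le d n i.2
        have h8 : a i ≤ 1 / 2 := h7
        linarith
  have hU : ∀ i : Fin n,
      ∑ j, (ind (x j) (i : ℕ) + ind (y j) (i : ℕ) + ind (z j) (i : ℕ)) * wgt j
        = 1 - ρ (i : ℕ) := by
    intro i
    have := hitem (i : ℕ) i.2
    linarith
  have hcov : ∀ σ ∈ sizes a, (mult a σ : ℝ) ≤ ∑ q, (cfgS q σ : ℝ) * wS q := by
    intro σ _
    rw [Fintype.sum_sum_type]
    simp only [hcfgS, hwS, Sum.elim_inl, Sum.elim_inr]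
    set filt : Finset (Fin n) := Finset.univ.filter (fun i => a i = σ) with hfilt
    have hfirst : ∑ j, (((if sz d n (x j) = σ then 1 else 0)
          + (if sz d n (y j) = σ then 1 else 0) + (if sz d n (z j) = σ then 1 else 0) : ℕ) : ℝ)
          * wgt j = ∑ i ∈ filt, (1 - ρ (i : ℕ)) := by
      rw [← Finset.sum_congr rfl (fun i _ => hU i), Finset.sum_comm]
      apply Finset.sum_congr rfl
      intro j _
      obtain ⟨hx, hy, hz, _⟩ := hxyz j
      rw [← Finset.sum_mul]
      congr 1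
      rw [Finset.sum_add_distrib, Finset.sum_add_distrib, hfilt]
      have e1 := sum_ind_filter d n hx σ
      have e2 := sum_ind_filter d n hy σ
      have e3 := sum_ind_filter d n hz σ
      simp only [ha]
      rw [e1, e2, e3]
      push_cast
      ring
    have hsecond : ∑ i : Fin n, (((if a i = σ then 2 else 0 : ℕ) : ℕ) : ℝ) * (ρ (i : ℕ) / 2)
        = ∑ i ∈ filt, ρ (i : ℕ) := by
      rw [hfilt, Finset.sum_filter]
      apply Finset.sum_congr rfl
      intro i _
      split_ifs <;> push_cast <;> ring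
    rw [hfirst, hsecond, ← Finset.sum_add_distrib]
    have h1 : ∑ i ∈ filt, (1 - ρ (i : ℕ) + ρ (i : ℕ)) = (filt.card : ℝ) := by
      simp
    rw [h1]
    unfold mult
    rw [hfilt]
  have hcover : IsFracCover a (Fintype.card (J ⊕ Fin n)) (fun q => cfgS (e.symm q))
      (fun q => wS (e.symm q)) := by
    refine ⟨fun q => hw _, fun q => hcfg _, ?_⟩
    intro σ hσ
    have h1 := hcov σ hσ
    have h2 : ∑ q, (cfgS (e.symm q) σ : ℝ) * wS (e.symm q) = ∑ q, (cfgS q σ : ℝ) * wS q :=
      Equiv.sum_comp e.symm (fun q => (cfgS q σ : ℝ) * wS q)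
    rw [h2]
    exact h1
  refine ⟨Fintype.card (J ⊕ Fin n), fun q => cfgS (e.symm q), fun q => wS (e.symm q), hcover, ?_⟩
  have h2 : ∑ q, wS (e.symm q) = ∑ q, wS q := Equiv.sum_comp e.symm wS
  rw [h2, Fintype.sum_sum_type]
  simp only [hwS, Sum.elim_inl, Sum.elim_inr]
  have hρsum : ∑ i : Fin n, ρ (i : ℕ) = (n : ℝ) - 3 * v := by
    have h3 : ∑ i : Fin n, (1 - ρ (i : ℕ)) = 3 * v := by
      rw [← Finset.sum_congr rfl (fun i _ => hU i), Finset.sum_comm, ← hv, Finset.mul_sum]
      apply Finset.sum_congr rfl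
      intro j _
      obtain ⟨hx, hy, hz, _⟩ := hxyz j
      rw [← Finset.sum_mul, Finset.sum_add_distrib, Finset.sum_add_distrib,
        sum_ind_univ n hx, sum_ind_univ n hy, sum_ind_univ n hz]
      ring
    rw [Finset.sum_sub_distrib] at h3
    simp only [Finset.sum_const, Finset.card_univ, Fintype.card_fin, nsmul_eq_mul, mul_one] at h3
    linarith
  rw [← Finset.sum_div, hρsum, hv]
  ring

/-- If at most `ν` pairwise disjoint triples fit and there are `3 ν + 5` items, then the items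
cannot be packed into `ν + 2` or fewer bins. -/
theorem no_packing_of_TB (d : ℕ → ℤ) (n ν : ℕ) (hn : n = 3 * ν + 5) (hTB : TB d n ν) (k : ℕ)
    (hk : k ≤ ν + 2) :
    ¬ ∃ f : Fin n → Fin k, IsPacking (fun i : Fin n => sz d n (i : ℕ)) k f := by
  intro h
  have h1 := opt_ge_of_TB d n ν hn hTB
  have h2 : opt (fun i : Fin n => sz d n (i : ℕ)) ≤ k := by
    unfold opt
    exact Nat.sInf_le h
  omega

/-- The family with explicit witnesses. -/
theorem witness_limit : ∀ ε : ℝ, 0 < ε → ∃ (n K : ℕ) (a : Fin n → ℚ),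
    (∀ i, 1 / 4 < a i ∧ a i ≤ 1 / 2) ∧
    (∀ k, k ≤ K → ¬ ∃ f : Fin n → Fin k, IsPacking a k f) ∧
    ∃ (m : ℕ) (cfg : Fin m → ℚ → ℕ) (w : Fin m → ℝ), IsFracCover a m cfg w ∧
      ∑ j, w j ≤ (K : ℝ) + 1 - (5 / 4 - ε) := by
  intro ε hε
  obtain ⟨j, hj⟩ := exists_pow_lt_of_lt_one hε (by norm_num : (1 / 2 : ℝ) < 1)
  obtain ⟨D, a, b, hG, ha, hb, ha0, hab, hb1, hD1, hD2, hD3⟩ := good_seq j
  obtain ⟨d, n, ν, ρ, v, B, hn, hTB, hFS, hB, hB0, hD⟩ := hG
  obtain ⟨m, cfg, w, hcov, hsum⟩ := cover_of_FS d n ρ v hFS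
  refine ⟨n, ν + 2, fun i => sz d n (i : ℕ), fun i => ⟨sz_gt d n i.2, sz_le d n i.2⟩,
    fun k hk => no_packing_of_TB d n ν hn hTB k hk, m, cfg, w, hcov, ?_⟩
  have hb' : b < ε := by
    rw [hb, ← one_div_pow]
    exact hj
  have h4 : (n : ℝ) = 3 * (ν : ℝ) + 5 := by
    rw [hn]
    push_cast
    ring
  rw [hsum, h4]
  push_cast
  linarith

end Vale.Agent.Lib.Helper9.P302Inf
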