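import Vale.Agent.Lib.Helper9.P302.InfMain7
import Vale.Agent.Lib.Helper9.P302.InfWitness

/-!
The family built from one fixed gadget with four idle items, with explicit witnesses: for every
`ε > 0` there is an instance with all sizes larger than `1/4` and at most `1/2`, a number `K`
such that the items cannot be packed into `K` or fewer bins, and a feasible fractional solution
of the configuration linear program whose value is at most `K + 1 - (1 + g / 6 - ε)`.
-/

namespace Vale.Agent.Lib.Helper9.P302Inf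

open Finset
open Vale.Agent.Lib.Helper3.BinPacking
open Vale.Agent.Lib.Helper2.Inf

/-- If at most `ν` pairwise disjoint triples fit and there are `3 ν + 7` items, then the items
cannot be packed into `ν + 3` or fewer bins. -/
theorem no_packing_of_TB7 (d : ℕ → ℤ) (n ν : ℕ) (hn : n = 3 * ν + 7) (hTB : TB d n ν) (k : ℕ)
    (hk : k ≤ ν + 3) :
    ¬ ∃ f : Fin n → Fin k, IsPacking (fun i : Fin n => sz d n (i : ℕ)) k f := by
  intro h
  have h1 := opt_ge_of_TB7 d n ν hn hTB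
  have h2 : opt (fun i : Fin n => sz d n (i : ℕ)) ≤ k := by
    unfold opt
    exact Nat.sInf_le h
  omega

/-- The family with explicit witnesses, for one fixed gadget with four idle items. -/
theorem witness_limit7 (G : Gadget) (t jk : ℕ) (H : ℤ) (g r : ℝ)
    (hN : G.N = 2 * t + 4) (hm : t + 4 ≤ G.m)
    (hc : ∀ b, b < G.m → (G.c b : ℤ) ≤ H) (hw : ∀ i, i < G.N → (G.w i : ℤ) ≤ H)
    (hInt : G.IntBound t) (hFP : G.FracPairs (t + g) r jk) (hr : 0 ≤ r)
    (hg0 : 0 ≤ g) (hg2 : g ≤ 2) :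
    ∀ ε : ℝ, 0 < ε → ∃ (n K : ℕ) (a : Fin n → ℚ),
      (∀ i, 1 / 4 < a i ∧ a i ≤ 1 / 2) ∧
      (∀ k, k ≤ K → ¬ ∃ f : Fin n → Fin k, IsPacking a k f) ∧
      ∃ (m : ℕ) (cfg : Fin m → ℚ → ℕ) (w : Fin m → ℝ), IsFracCover a m cfg w ∧
        ∑ j, w j ≤ (K : ℝ) + 1 - (1 + g / 6 - ε) := by
  intro ε hε
  obtain ⟨j, hj⟩ := exists_pow_lt_of_lt_one hε (by norm_num : (1 / 4 : ℝ) < 1)
  obtain ⟨D, hG, hD1, hD2, hD3⟩ := good7_seq G t jk H g r hN hm hc hw hInt hFP hr hg0 hg2 j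
  obtain ⟨d, n, ν, ρ, v, B, hn, hTB, hFS, hB, hB0, hD⟩ := hG
  obtain ⟨m, cfg, w, hcov, hsum⟩ := cover_of_FS d n ρ v hFS
  refine ⟨n, ν + 3, fun i => sz d n (i : ℕ), fun i => ⟨sz_gt d n i.2, sz_le d n i.2⟩,
    fun k hk => no_packing_of_TB7 d n ν hn hTB k hk, m, cfg, w, hcov, ?_⟩
  have h4 : (n : ℝ) = 3 * (ν : ℝ) + 7 := by
    rw [hn]
    push_cast
    ring
  rw [hsum, h4]
  push_cast
  linarith

end Vale.Agent.Lib.Helper9.P302Inf
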