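import Vale.Agent.Lib.Helper2.P302.InfFS
import Vale.Agent.Lib.Helper4.P302.Join

/-!
The fractional side of the join of two pairs in bins gadgets.

Fractional families of pairs in bins of the two gadgets `Gb` and `Gc` are combined with four
product families of further pairs into a fractional family of the join: the item of weight `0`
with the unused fractions of the first half in the small bin, the item of weight `0` with the
unused fractions of the second half in the top bin, pairs of unused fractions of the first half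
in the top bin, and pairs of one unused fraction of each half in the spare room of the bins of
`Gc`.
-/

namespace Vale.Agent.Lib.Helper9.P302Join

open Finset
open Vale.Agent.Lib.Helper2.Inf
open Vale.Agent.Lib.Helper4.P302

/-- A fractional family of pairs in bins of the gadget `G` with bin usage `ub`, item usage `ui`
and total weight `v`. -/
def PUsage (G : Gadget) (ub ui : ℕ → ℝ) (v : ℝ) : Prop :=
  ∃ (J : Type) (_ : Fintype J) (bin i1 i2 : J → ℕ) (wgt : J → ℝ),
    (∀ j, 0 ≤ wgt j) ∧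
    (∀ j, bin j < G.m ∧ i1 j < G.N ∧ i2 j < G.N ∧ G.w (i1 j) + G.w (i2 j) ≤ G.c (bin j)) ∧
    (∀ b, ∑ j, ind (bin j) b * wgt j = ub b) ∧
    (∀ i, ∑ j, (ind (i1 j) i + ind (i2 j) i) * wgt j = ui i) ∧
    ∑ j, wgt j = v

theorem PUsage.toFracPairs {G : Gadget} {ub ui : ℕ → ℝ} {v ts r : ℝ} {jk : ℕ}
    (h : PUsage G ub ui v) (hb : ∀ b, b < G.m → ub b ≤ 1)
    (hi : ∀ i, i < G.N → ui i = 1 - (if i = jk then r else 0)) (hv : v = ts) :
    G.FracPairs ts r jk := by
  obtain ⟨J, inst, bin, i1, i2, wgt, hw, hval, hub, hui, htot⟩ := h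
  exact ⟨J, inst, bin, i1, i2, wgt, hw, hval, fun b hb' => by rw [hub b]; exact hb b hb',
    fun i hi' => by rw [hui i]; exact hi i hi', by rw [htot, hv]⟩

theorem PUsage.congr {G : Gadget} {ub ui ub' ui' : ℕ → ℝ} {v v' : ℝ}
    (h : PUsage G ub ui v) (hb : ∀ b, ub b = ub' b) (hi : ∀ i, ui i = ui' i) (hv : v = v') :
    PUsage G ub' ui' v' := by
  obtain ⟨J, inst, bin, i1, i2, wgt, hw, hval, hub, hui, htot⟩ := h
  exact ⟨J, inst, bin, i1, i2, wgt, hw, hval, fun b => by rw [hub b, hb b],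
    fun i => by rw [hui i, hi i], by rw [htot, hv]⟩

theorem PUsage.add {G : Gadget} {ub1 ui1 ub2 ui2 : ℕ → ℝ} {v1 v2 : ℝ}
    (h1 : PUsage G ub1 ui1 v1) (h2 : PUsage G ub2 ui2 v2) :
    PUsage G (fun b => ub1 b + ub2 b) (fun i => ui1 i + ui2 i) (v1 + v2) := by
  obtain ⟨J1, inst1, b1, x1, y1, w1, hw1, hval1, hub1, hui1, htot1⟩ := h1
  obtain ⟨J2, inst2, b2, x2, y2, w2, hw2, hval2, hub2, hui2, htot2⟩ := h2
  refine ⟨J1 ⊕ J2, inferInstance, Sum.elim b1 b2, Sum.elim x1 x2, Sum.elim y1 y2,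
    Sum.elim w1 w2, ?_, ?_, ?_, ?_, ?_⟩
  · rintro (j | j)
    · exact hw1 j
    · exact hw2 j
  · rintro (j | j)
    · exact hval1 j
    · exact hval2 j
  · intro b
    rw [Fintype.sum_sum_type]
    simp only [Sum.elim_inl, Sum.elim_inr]
    rw [hub1 b, hub2 b]
  · intro i
    rw [Fintype.sum_sum_type]
    simp only [Sum.elim_inl, Sum.elim_inr]
    rw [hui1 i, hui2 i]
  · rw [Fintype.sum_sum_type]
    simp only [Sum.elim_inl, Sum.elim_inr]
    rw [htot1, htot2]

/-- A product family: the pairs of `I1 b` and `I2 c` in the bins `Bn a` with the weights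
`U a * P b * R c`. -/
theorem PUsage.prod3 (G : Gadget) (ka kb kc : ℕ) (Bn I1 I2 : ℕ → ℕ) (U P R : ℕ → ℝ)
    (hU : ∀ a, a < ka → 0 ≤ U a) (hP : ∀ b, b < kb → 0 ≤ P b) (hR : ∀ c, c < kc → 0 ≤ R c)
    (hv : ∀ a, a < ka → ∀ b, b < kb → ∀ c, c < kc →
      Bn a < G.m ∧ I1 b < G.N ∧ I2 c < G.N ∧ G.w (I1 b) + G.w (I2 c) ≤ G.c (Bn a)) :
    PUsage G
      (fun b' =>
        (∑ a ∈ range ka, ind (Bn a) b' * U a) * (∑ b ∈ range kb, P b) * (∑ c ∈ range kc, R c))
      (fun i =>
        (∑ a ∈ range ka, U a) * (∑ b ∈ range kb, ind (I1 b) i * P b) * (∑ c ∈ range kc, R c) +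
        (∑ a ∈ range ka, U a) * (∑ b ∈ range kb, P b) * (∑ c ∈ range kc, ind (I2 c) i * R c))
      ((∑ a ∈ range ka, U a) * (∑ b ∈ range kb, P b) * (∑ c ∈ range kc, R c)) := by
  refine ⟨Fin ka × Fin kb × Fin kc, inferInstance, fun j => Bn j.1, fun j => I1 j.2.1,
    fun j => I2 j.2.2, fun j => U j.1 * P j.2.1 * R j.2.2, ?_, ?_, ?_, ?_, ?_⟩
  · rintro ⟨a, b, c⟩
    exact mul_nonneg (mul_nonneg (hU a a.2) (hP b b.2)) (hR c c.2)
  · rintro ⟨a, b, c⟩
    exact hv a a.2 b b.2 c c.2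
  · intro b'
    simp only [Fintype.sum_prod_type, Finset.sum_range]
    rw [prod3_tot (fun a : Fin ka => ind (Bn a) b' * U a) (fun b : Fin kb => P b)
      (fun c : Fin kc => R c)]
    refine Finset.sum_congr rfl (fun a _ => Finset.sum_congr rfl (fun b _ =>
      Finset.sum_congr rfl (fun c _ => ?_)))
    ring
  · intro i
    simp only [Fintype.sum_prod_type, Finset.sum_range]
    have h := prod3_alg (fun _ : Fin ka => (0 : ℝ)) (fun a : Fin ka => U a)
      (fun b : Fin kb => ind (I1 b) i) (fun b : Fin kb => P b)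
      (fun c : Fin kc => ind (I2 c) i) (fun c : Fin kc => R c)
    simp only [zero_add, zero_mul, Finset.sum_const_zero] at h
    exact h
  · simp only [Fintype.sum_prod_type, Finset.sum_range]
    exact (prod3_tot (fun a : Fin ka => U a) (fun b : Fin kb => P b)
      (fun c : Fin kc => R c)).symm

/-- A list of `k + 1` items: the items `base + a` for `a < k`, and then the item `jk`. -/
def srcIdx (k base jk : ℕ) : ℕ → ℕ := fun a => if a < k then base + a else jk

/-- The shares of the listed items: `f a * ρ` for the item `base + a` and `x * ρ` for `jk`. -/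
def srcAmt (k : ℕ) (f : ℕ → ℝ) (x ρ : ℝ) : ℕ → ℝ := fun a => (if a < k then f a else x) * ρ

/-- The amount carried by the index `i` in the list. -/
def srcSpread (k base jk : ℕ) (f : ℕ → ℝ) (x : ℝ) : ℕ → ℝ :=
  fun i => (if base ≤ i ∧ i < base + k then f (i - base) else 0) + ind jk i * x

theorem srcIdx_lt {k base jk a : ℕ} (h : a < k) : srcIdx k base jk a = base + a := if_pos h

theorem srcIdx_ge {k base jk a : ℕ} (h : ¬ a < k) : srcIdx k base jk a = jk := if_neg h

theorem srcAmt_nonneg (k : ℕ) (f : ℕ → ℝ) (x ρ : ℝ) (hf : ∀ a, a < k → 0 ≤ f a) (hx : 0 ≤ x)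
    (hρ : 0 ≤ ρ) (a : ℕ) : 0 ≤ srcAmt k f x ρ a := by
  show 0 ≤ (if a < k then f a else x) * ρ
  split_ifs with h
  · exact mul_nonneg (hf a h) hρ
  · exact mul_nonneg hx hρ

theorem srcAmt_sum (k : ℕ) (f : ℕ → ℝ) (x ρ : ℝ) :
    ∑ a ∈ range (k + 1), srcAmt k f x ρ a = ((∑ a ∈ range k, f a) + x) * ρ := by
  show ∑ a ∈ range (k + 1), (if a < k then f a else x) * ρ = _
  rw [← Finset.sum_mul, Finset.sum_range_succ, if_neg (lt_irrefl k)]
  congr 2
  exact Finset.sum_congr rfl (fun a ha => if_pos (Finset.mem_range.1 ha))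

theorem srcAmt_spread (k base jk i : ℕ) (f : ℕ → ℝ) (x ρ : ℝ) :
    ∑ a ∈ range (k + 1), ind (srcIdx k base jk a) i * srcAmt k f x ρ a =
      srcSpread k base jk f x i * ρ := by
  show ∑ a ∈ range (k + 1), ind (if a < k then base + a else jk) i *
      ((if a < k then f a else x) * ρ) =
    ((if base ≤ i ∧ i < base + k then f (i - base) else 0) + ind jk i * x) * ρ
  rw [Finset.sum_range_succ, if_neg (lt_irrefl k), if_neg (lt_irrefl k),
    ← sum_ind_shift k base i f, add_mul, Finset.sum_mul]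
  congr 1
  · refine Finset.sum_congr rfl (fun a ha => ?_)
    have h := Finset.mem_range.1 ha
    rw [if_pos h, if_pos h]
    ring
  · ring

/-- A product family whose two item lists are given with their shares. -/
theorem PUsage.src (G : Gadget) (ka : ℕ) (Bn : ℕ → ℕ) (U : ℕ → ℝ) (C W1 W2 : ℕ)
    (k1 base1 jk1 : ℕ) (f1 : ℕ → ℝ) (x1 ρ1 : ℝ) (k2 base2 jk2 : ℕ) (f2 : ℕ → ℝ) (x2 ρ2 : ℝ)
    (hU : ∀ a, a < ka → 0 ≤ U a)
    (hf1 : ∀ a, a < k1 → 0 ≤ f1 a) (hx1 : 0 ≤ x1) (hρ1 : 0 ≤ ρ1)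
    (hs1 : ((∑ a ∈ range k1, f1 a) + x1) * ρ1 = 1)
    (hf2 : ∀ a, a < k2 → 0 ≤ f2 a) (hx2 : 0 ≤ x2) (hρ2 : 0 ≤ ρ2)
    (hs2 : ((∑ a ∈ range k2, f2 a) + x2) * ρ2 = 1)
    (hB : ∀ a, a < ka → Bn a < G.m ∧ C ≤ G.c (Bn a))
    (h1 : ∀ b, b < k1 + 1 → srcIdx k1 base1 jk1 b < G.N ∧ G.w (srcIdx k1 base1 jk1 b) ≤ W1)
    (h2 : ∀ c, c < k2 + 1 → srcIdx k2 base2 jk2 c < G.N ∧ G.w (srcIdx k2 base2 jk2 c) ≤ W2)
    (hW : W1 + W2 ≤ C) :
    PUsage G (fun b' => ∑ a ∈ range ka, ind (Bn a) b' * U a)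
      (fun i => (∑ a ∈ range ka, U a) *
        (srcSpread k1 base1 jk1 f1 x1 i * ρ1 + srcSpread k2 base2 jk2 f2 x2 i * ρ2))
      (∑ a ∈ range ka, U a) := by
  have h := PUsage.prod3 G ka (k1 + 1) (k2 + 1) Bn (srcIdx k1 base1 jk1) (srcIdx k2 base2 jk2) U
    (srcAmt k1 f1 x1 ρ1) (srcAmt k2 f2 x2 ρ2) hU
    (fun b _ => srcAmt_nonneg k1 f1 x1 ρ1 hf1 hx1 hρ1 b)
    (fun c _ => srcAmt_nonneg k2 f2 x2 ρ2 hf2 hx2 hρ2 c)
    (fun a ha b hb c hc => by
      obtain ⟨p1, p2⟩ := hB a ha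
      obtain ⟨q1, q2⟩ := h1 b hb
      obtain ⟨r1, r2⟩ := h2 c hc
      exact ⟨p1, q1, r1, by omega⟩)
  refine h.congr ?_ ?_ ?_
  · intro b'
    rw [srcAmt_sum, srcAmt_sum, hs1, hs2, mul_one, mul_one]
  · intro i
    rw [srcAmt_sum, srcAmt_sum, srcAmt_spread, srcAmt_spread, hs1, hs2]
    ring
  · rw [srcAmt_sum, srcAmt_sum, hs1, hs2, mul_one, mul_one]

theorem sum_last (e : ℕ) (r : ℝ) (he : 1 ≤ e) :
    ∑ a ∈ range e, (if a + 1 = e then 1 - r else (1 : ℝ)) = e - r := by
  obtain ⟨k, rfl⟩ : ∃ k, e = k + 1 := ⟨e - 1, by omega⟩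
  rw [Finset.sum_range_succ, if_pos rfl]
  have h : ∑ a ∈ range k, (if a + 1 = k + 1 then 1 - r else (1 : ℝ)) =
      ∑ a ∈ range k, (1 : ℝ) := by
    refine Finset.sum_congr rfl (fun a ha => ?_)
    have := Finset.mem_range.1 ha
    rw [if_neg (by omega)]
  rw [h]
  simp only [Finset.sum_const, Finset.card_range, nsmul_eq_mul, mul_one]
  push_cast
  ring

/-- The family of `Gb` inside the join. -/
theorem join_usage_b (Gb Gc : Gadget) (H eb ec jkb : ℕ) (tsb rb : ℝ)
    (hF : Gb.FracPairs tsb rb jkb) :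
    ∃ ub ui : ℕ → ℝ, PUsage (join Gb Gc H eb ec) ub ui tsb ∧
      (∀ b, b < Gb.m → ub b ≤ 1) ∧ (∀ b, Gb.m ≤ b → ub b = 0) ∧
      (∀ i, i < Gb.N → ui i = 1 - (if i = jkb then rb else 0)) ∧
      (∀ i, Gb.N ≤ i → ui i = 0) := by
  obtain ⟨J, inst, bin, i1, i2, wgt, hw, hval, hbin, hitem, htot⟩ := hF
  refine ⟨fun b => ∑ j, ind (bin j) b * wgt j,
    fun i => ∑ j, (ind (i1 j) i + ind (i2 j) i) * wgt j,
    ⟨J, inst, bin, i1, i2, wgt, hw, ?_, fun _ => rfl, fun _ => rfl, htot⟩, hbin, ?_, hitem, ?_⟩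
  · intro j
    obtain ⟨a, b, c, e⟩ := hval j
    rw [join_m, join_N, join_w_b Gb Gc H eb ec (i1 j) b, join_w_b Gb Gc H eb ec (i2 j) c,
      join_c_b Gb Gc H eb ec (bin j) a]
    refine ⟨by omega, by omega, by omega, by omega⟩
  · intro b hb
    apply Finset.sum_eq_zero
    intro j _
    have := (hval j).1
    rw [ind_ne (by omega), zero_mul]
  · intro i hi
    apply Finset.sum_eq_zero
    intro j _
    obtain ⟨a, b, c, e⟩ := hval j
    rw [ind_ne (by omega), ind_ne (by omega)]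
    ring

/-- The family of `Gc` inside the join. -/
theorem join_usage_c (Gb Gc : Gadget) (H eb ec jkc : ℕ) (tsc rc : ℝ)
    (hF : Gc.FracPairs tsc rc jkc) :
    ∃ ub ui : ℕ → ℝ, PUsage (join Gb Gc H eb ec) ub ui tsc ∧
      (∀ b, b < Gc.m → ub (Gb.m + b) ≤ 1) ∧ (∀ b, b < Gb.m → ub b = 0) ∧
      (∀ b, Gb.m + Gc.m ≤ b → ub b = 0) ∧
      (∀ i, i < Gc.N → ui (Gb.N + eb + i) = 1 - (if i = jkc then rc else 0)) ∧
      (∀ i, i < Gb.N + eb → ui i = 0) ∧ (∀ i, Gb.N + eb + Gc.N ≤ i → ui i = 0) ∧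
      ∑ b ∈ range Gc.m, ub (Gb.m + b) = tsc := by
  obtain ⟨J, inst, bin, i1, i2, wgt, hw, hval, hbin, hitem, htot⟩ := hF
  refine ⟨fun b => ∑ j, ind (Gb.m + bin j) b * wgt j,
    fun i => ∑ j, (ind (Gb.N + eb + i1 j) i + ind (Gb.N + eb + i2 j) i) * wgt j,
    ⟨J, inst, fun j => Gb.m + bin j, fun j => Gb.N + eb + i1 j, fun j => Gb.N + eb + i2 j,
      wgt, hw, ?_, fun _ => rfl, fun _ => rfl, htot⟩, ?_, ?_, ?_, ?_, ?_, ?_, ?_⟩
  · intro j
    obtain ⟨a, b, c, e⟩ := hval j
    show Gb.m + bin j < (join Gb Gc H eb ec).m ∧ Gb.N + eb + i1 j < (join Gb Gc H eb ec).N ∧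
      Gb.N + eb + i2 j < (join Gb Gc H eb ec).N ∧
      (join Gb Gc H eb ec).w (Gb.N + eb + i1 j) + (join Gb Gc H eb ec).w (Gb.N + eb + i2 j) ≤
        (join Gb Gc H eb ec).c (Gb.m + bin j)
    rw [join_m, join_N, join_w_c Gb Gc H eb ec (i1 j) b, join_w_c Gb Gc H eb ec (i2 j) c,
      join_c_c Gb Gc H eb ec (bin j) a]
    refine ⟨by omega, by omega, by omega, by omega⟩
  · intro b hb
    simp only [ind_add_left]
    exact hbin b hb
  · intro b hb
    apply Finset.sum_eq_zero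
    intro j _
    rw [ind_ne (by omega), zero_mul]
  · intro b hb
    apply Finset.sum_eq_zero
    intro j _
    have := (hval j).1
    rw [ind_ne (by omega), zero_mul]
  · intro i hi
    simp only [ind_add_left]
    exact hitem i hi
  · intro i hi
    apply Finset.sum_eq_zero
    intro j _
    rw [ind_ne (by omega), ind_ne (by omega)]
    ring
  · intro i hi
    apply Finset.sum_eq_zero
    intro j _
    obtain ⟨a, b, c, e⟩ := hval j
    rw [ind_ne (by omega), ind_ne (by omega)]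
    ring
  · simp only [ind_add_left]
    rw [Finset.sum_comm, ← htot]
    refine Finset.sum_congr rfl (fun j _ => ?_)
    rw [← Finset.sum_mul, sum_ind_range _ _ (hval j).1, one_mul]

/-- The fractional side of the join: fractional families of `Gb` and `Gc` give a fractional
family of the join with `Gc.m + 1 + y` more pairs than the family of `Gb`; its unused fraction
`r'` sits on the last of the `ec` further items of the second half. -/
theorem join_frac (Gb Gc : Gadget) (H eb ec jkb jkc : ℕ) (tsb rb tsc rc y r' : ℝ)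
    (hwb : ∀ i, i < Gb.N → Gb.w i ≤ H) (hcb : ∀ b, b < Gb.m → Gb.c b ≤ H)
    (hwc : ∀ i, i < Gc.N → Gc.w i ≤ H) (hcc : ∀ b, b < Gc.m → Gc.c b ≤ H)
    (hjb : jkb < Gb.N) (hjc : jkc < Gc.N)
    (hFb : Gb.FracPairs tsb rb jkb) (hFc : Gc.FracPairs tsc rc jkc)
    (hrb : 0 ≤ rb) (hrc : 0 ≤ rc) (hec : 1 ≤ ec)
    (hy0 : 0 ≤ y) (hy1 : y ≤ 1)
    (hbal : 3 * y + ((Gc.m : ℝ) - tsc) = rb + eb) (hpos : 0 < rb + eb)
    (hU : 0 < 1 - y + ((Gc.m : ℝ) - tsc))
    (hr' : r' = rc + ec - (1 - y) - ((Gc.m : ℝ) - tsc)) (hr0 : 0 ≤ r') (hr1 : r' ≤ 1) :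
    (join Gb Gc H eb ec).FracPairs (tsb + Gc.m + 1 + y) r' (Gb.N + eb + Gc.N + ec - 1) := by
  obtain ⟨ubb, uib, hPb, hbb1, hbb0, hib1, hib0⟩ := join_usage_b Gb Gc H eb ec jkb tsb rb hFb
  obtain ⟨ubc, uic, hPc, hbc1, hbc0, hbc0', hic1, hic0, hic0', hsumc⟩ :=
    join_usage_c Gb Gc H eb ec jkc tsc rc hFc
  -- the three lists of items
  have hso : ((∑ a ∈ range eb, (1 : ℝ)) + rb) * (rb + eb)⁻¹ = 1 := by
    simp only [Finset.sum_const, Finset.card_range, nsmul_eq_mul, mul_one]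
    rw [add_comm]
    exact mul_inv_cancel₀ (ne_of_gt hpos)
  have hsh : ((∑ a ∈ range ec, (if a + 1 = ec then 1 - r' else (1 : ℝ))) + rc) *
      (1 - y + ((Gc.m : ℝ) - tsc))⁻¹ = 1 := by
    rw [sum_last ec r' hec]
    have h : (ec : ℝ) - r' + rc = 1 - y + ((Gc.m : ℝ) - tsc) := by rw [hr']; ring
    rw [h]
    exact mul_inv_cancel₀ (ne_of_gt hU)
  have hsz : ((∑ a ∈ range 0, (0 : ℝ)) + 1) * (1 : ℝ) = 1 := by simp
  have hfh : ∀ a, a < ec → (0 : ℝ) ≤ (if a + 1 = ec then 1 - r' else (1 : ℝ)) := by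
    intro a _
    split_ifs
    · linarith
    · exact zero_le_one
  have hwz : ∀ b, b < 0 + 1 →
      srcIdx 0 0 (Gb.N + eb + Gc.N + ec) b < (join Gb Gc H eb ec).N ∧
      (join Gb Gc H eb ec).w (srcIdx 0 0 (Gb.N + eb + Gc.N + ec) b) ≤ 0 := by
    intro b _
    rw [srcIdx_ge (Nat.not_lt_zero b), join_w_z, join_N]
    exact ⟨by omega, le_refl 0⟩
  have hwo : ∀ c, c < eb + 1 → srcIdx eb Gb.N jkb c < (join Gb Gc H eb ec).N ∧
      (join Gb Gc H eb ec).w (srcIdx eb Gb.N jkb c) ≤ 3 * (H + 1) := by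
    intro c _
    rw [join_N]
    by_cases h : c < eb
    · rw [srcIdx_lt h, join_w_eb Gb Gc H eb ec (Gb.N + c) (by omega) (by omega)]
      exact ⟨by omega, by omega⟩
    · rw [srcIdx_ge h, join_w_b Gb Gc H eb ec jkb hjb]
      have := hwb jkb hjb
      exact ⟨by omega, by omega⟩
  have hwh : ∀ c, c < ec + 1 →
      srcIdx ec (Gb.N + eb + Gc.N) (Gb.N + eb + jkc) c < (join Gb Gc H eb ec).N ∧
      (join Gb Gc H eb ec).w (srcIdx ec (Gb.N + eb + Gc.N) (Gb.N + eb + jkc) c) ≤
        7 * (H + 1) := by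
    intro c _
    rw [join_N]
    by_cases h : c < ec
    · rw [srcIdx_lt h, join_w_ec Gb Gc H eb ec (Gb.N + eb + Gc.N + c) (by omega) (by omega)]
      exact ⟨by omega, by omega⟩
    · rw [srcIdx_ge h, join_w_c Gb Gc H eb ec jkc hjc]
      have := hwc jkc hjc
      exact ⟨by omega, by omega⟩
  -- the bins
  have hBsm : ∀ a, a < 1 → Gb.m + Gc.m < (join Gb Gc H eb ec).m ∧
      3 * (H + 1) ≤ (join Gb Gc H eb ec).c (Gb.m + Gc.m) := by
    intro a _
    rw [join_m, join_c_sm]
    exact ⟨by omega, by omega⟩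
  have hBtp : ∀ a, a < 1 → Gb.m + Gc.m + 1 < (join Gb Gc H eb ec).m ∧
      7 * (H + 1) ≤ (join Gb Gc H eb ec).c (Gb.m + Gc.m + 1) := by
    intro a _
    rw [join_m, join_c_tp]
    exact ⟨by omega, by omega⟩
  have hBc : ∀ a, a < Gc.m → Gb.m + a < (join Gb Gc H eb ec).m ∧
      12 * (H + 1) ≤ (join Gb Gc H eb ec).c (Gb.m + a) := by
    intro a ha
    rw [join_m, join_c_c Gb Gc H eb ec a ha]
    exact ⟨by omega, by omega⟩
  have hρb : (0 : ℝ) ≤ (rb + eb)⁻¹ := inv_nonneg.2 hpos.le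
  have hρc : (0 : ℝ) ≤ (1 - y + ((Gc.m : ℝ) - tsc))⁻¹ := inv_nonneg.2 hU.le
  -- the four product families
  have hF3 := PUsage.src (join Gb Gc H eb ec) 1 (fun _ => Gb.m + Gc.m) (fun _ => y)
    (3 * (H + 1)) 0 (3 * (H + 1))
    0 0 (Gb.N + eb + Gc.N + ec) (fun _ => 0) 1 1
    eb Gb.N jkb (fun _ => 1) rb (rb + eb)⁻¹
    (fun _ _ => hy0) (fun _ _ => le_refl 0) zero_le_one zero_le_one hsz
    (fun _ _ => zero_le_one) hrb hρb hso hBsm hwz hwo (by omega)
  have hF4a := PUsage.src (join Gb Gc H eb ec) 1 (fun _ => Gb.m + Gc.m + 1) (fun _ => 1 - y)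
    (7 * (H + 1)) 0 (7 * (H + 1))
    0 0 (Gb.N + eb + Gc.N + ec) (fun _ => 0) 1 1
    ec (Gb.N + eb + Gc.N) (Gb.N + eb + jkc) (fun a => if a + 1 = ec then 1 - r' else 1) rc
    (1 - y + ((Gc.m : ℝ) - tsc))⁻¹
    (fun _ _ => by linarith) (fun _ _ => le_refl 0) zero_le_one zero_le_one hsz
    hfh hrc hρc hsh hBtp hwz hwh (by omega)
  have hF4b := PUsage.src (join Gb Gc H eb ec) 1 (fun _ => Gb.m + Gc.m + 1) (fun _ => y)
    (7 * (H + 1)) (3 * (H + 1)) (3 * (H + 1))
    eb Gb.N jkb (fun _ => 1) rb (rb + eb)⁻¹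
    eb Gb.N jkb (fun _ => 1) rb (rb + eb)⁻¹
    (fun _ _ => hy0) (fun _ _ => zero_le_one) hrb hρb hso
    (fun _ _ => zero_le_one) hrb hρb hso hBtp hwo hwo (by omega)
  have hF5 := PUsage.src (join Gb Gc H eb ec) Gc.m (fun a => Gb.m + a)
    (fun a => 1 - ubc (Gb.m + a))
    (12 * (H + 1)) (3 * (H + 1)) (7 * (H + 1))
    eb Gb.N jkb (fun _ => 1) rb (rb + eb)⁻¹
    ec (Gb.N + eb + Gc.N) (Gb.N + eb + jkc) (fun a => if a + 1 = ec then 1 - r' else 1) rc
    (1 - y + ((Gc.m : ℝ) - tsc))⁻¹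
    (fun a ha => by have := hbc1 a ha; linarith) (fun _ _ => zero_le_one) hrb hρb hso
    hfh hrc hρc hsh hBc hwo hwh (by omega)
  have hsum := ((((hPb.add hPc).add hF3).add hF4a).add hF4b).add hF5
  have hsc : ∑ a ∈ range Gc.m, (1 - ubc (Gb.m + a)) = (Gc.m : ℝ) - tsc := by
    rw [Finset.sum_sub_distrib, hsumc]
    simp
  have h1 : (rb + eb)⁻¹ * (3 * y + ((Gc.m : ℝ) - tsc)) = 1 := by
    rw [hbal]
    exact inv_mul_cancel₀ (ne_of_gt hpos)
  have h2 : (1 - y + ((Gc.m : ℝ) - tsc))⁻¹ * (1 - y + ((Gc.m : ℝ) - tsc)) = 1 :=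
    inv_mul_cancel₀ (ne_of_gt hU)
  -- the usage of every item before the new shares are scaled
  have hX : ∀ i, i < Gb.N + eb + Gc.N + ec + 1 →
      uib i + uic i + srcSpread 0 0 (Gb.N + eb + Gc.N + ec) (fun _ => 0) 1 i +
        srcSpread eb Gb.N jkb (fun _ => 1) rb i +
        srcSpread ec (Gb.N + eb + Gc.N) (Gb.N + eb + jkc)
          (fun a => if a + 1 = ec then 1 - r' else 1) rc i =
      1 - (if i = Gb.N + eb + Gc.N + ec - 1 then r' else 0) := by
    intro i hi
    have ez : srcSpread 0 0 (Gb.N + eb + Gc.N + ec) (fun _ => 0) 1 i =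
        ind (Gb.N + eb + Gc.N + ec) i := by
      simp [srcSpread]
    rw [ez]
    rcases lt_or_ge i Gb.N with h | h
    · have e1 := hib1 i h
      have e2 := hic0 i (by omega)
      have e3 : ind (Gb.N + eb + Gc.N + ec) i = 0 := ind_ne (by omega)
      have e4 : srcSpread eb Gb.N jkb (fun _ => (1 : ℝ)) rb i = ind jkb i * rb := by
        simp only [srcSpread]
        rw [if_neg (by omega), zero_add]
      have e5 : srcSpread ec (Gb.N + eb + Gc.N) (Gb.N + eb + jkc)
          (fun a => if a + 1 = ec then 1 - r' else 1) rc i = 0 := by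
        simp only [srcSpread]
        rw [if_neg (by omega), ind_ne (by omega)]
        ring
      have e6 : (if i = Gb.N + eb + Gc.N + ec - 1 then r' else 0) = 0 := if_neg (by omega)
      rw [e1, e2, e3, e4, e5, e6]
      rcases eq_or_ne i jkb with h' | h'
      · subst h'
        rw [if_pos rfl, ind_self]
        ring
      · rw [if_neg h', ind_ne (Ne.symm h')]
        ring
    · rcases lt_or_ge i (Gb.N + eb) with h' | h'
      · have e1 := hib0 i h
        have e2 := hic0 i h'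
        have e3 : ind (Gb.N + eb + Gc.N + ec) i = 0 := ind_ne (by omega)
        have e4 : srcSpread eb Gb.N jkb (fun _ => (1 : ℝ)) rb i = 1 := by
          simp only [srcSpread]
          rw [if_pos ⟨h, h'⟩, ind_ne (by omega)]
          ring
        have e5 : srcSpread ec (Gb.N + eb + Gc.N) (Gb.N + eb + jkc)
            (fun a => if a + 1 = ec then 1 - r' else 1) rc i = 0 := by
          simp only [srcSpread]
          rw [if_neg (by omega), ind_ne (by omega)]
          ring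
        have e6 : (if i = Gb.N + eb + Gc.N + ec - 1 then r' else 0) = 0 := if_neg (by omega)
        rw [e1, e2, e3, e4, e5, e6]
        ring
      · rcases lt_or_ge i (Gb.N + eb + Gc.N) with h'' | h''
        · obtain ⟨i0, rfl⟩ : ∃ i0, i = Gb.N + eb + i0 := ⟨i - (Gb.N + eb), by omega⟩
          have e1 := hib0 (Gb.N + eb + i0) h
          have e2 := hic1 i0 (by omega)
          have e3 : ind (Gb.N + eb + Gc.N + ec) (Gb.N + eb + i0) = 0 := ind_ne (by omega)
          have e4 : srcSpread eb Gb.N jkb (fun _ => (1 : ℝ)) rb (Gb.N + eb + i0) = 0 := by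
            simp only [srcSpread]
            rw [if_neg (by omega), ind_ne (by omega)]
            ring
          have e5 : srcSpread ec (Gb.N + eb + Gc.N) (Gb.N + eb + jkc)
              (fun a => if a + 1 = ec then 1 - r' else 1) rc (Gb.N + eb + i0) =
              ind jkc i0 * rc := by
            simp only [srcSpread]
            rw [if_neg (by omega), ind_add_left, zero_add]
          have e6 : (if Gb.N + eb + i0 = Gb.N + eb + Gc.N + ec - 1 then r' else 0) = 0 :=
            if_neg (by omega)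
          rw [e1, e2, e3, e4, e5, e6]
          rcases eq_or_ne i0 jkc with h3 | h3
          · subst h3
            rw [if_pos rfl, ind_self]
            ring
          · rw [if_neg h3, ind_ne (Ne.symm h3)]
            ring
        · have e1 := hib0 i h
          have e2 := hic0' i h''
          have e4 : srcSpread eb Gb.N jkb (fun _ => (1 : ℝ)) rb i = 0 := by
            simp only [srcSpread]
            rw [if_neg (by omega), ind_ne (by omega)]
            ring
          rcases lt_or_ge i (Gb.N + eb + Gc.N + ec) with h3 | h3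
          · have e3 : ind (Gb.N + eb + Gc.N + ec) i = 0 := ind_ne (by omega)
            by_cases hl : i = Gb.N + eb + Gc.N + ec - 1
            · have e5 : srcSpread ec (Gb.N + eb + Gc.N) (Gb.N + eb + jkc)
                  (fun a => if a + 1 = ec then 1 - r' else 1) rc i = 1 - r' := by
                simp only [srcSpread]
                rw [if_pos ⟨h'', h3⟩, if_pos (by omega), ind_ne (by omega)]
                ring
              rw [e1, e2, e3, e4, e5, if_pos hl]
              ring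
            · have e5 : srcSpread ec (Gb.N + eb + Gc.N) (Gb.N + eb + jkc)
                  (fun a => if a + 1 = ec then 1 - r' else 1) rc i = 1 := by
                simp only [srcSpread]
                rw [if_pos ⟨h'', h3⟩, if_neg (by omega), ind_ne (by omega)]
                ring
              rw [e1, e2, e3, e4, e5, if_neg hl]
              ring
          · have hi' : i = Gb.N + eb + Gc.N + ec := by omega
            subst hi'
            have e5 : srcSpread ec (Gb.N + eb + Gc.N) (Gb.N + eb + jkc)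
                (fun a => if a + 1 = ec then 1 - r' else 1) rc (Gb.N + eb + Gc.N + ec) = 0 := by
              simp only [srcSpread]
              rw [if_neg (by omega), ind_ne (by omega)]
              ring
            have e6 : (if Gb.N + eb + Gc.N + ec = Gb.N + eb + Gc.N + ec - 1 then r' else 0) =
                0 := if_neg (by omega)
            rw [e1, e2, ind_self, e4, e5, e6]
            ring
  refine hsum.toFracPairs ?_ ?_ ?_
  · intro b hb
    rw [join_m] at hb
    simp only [Finset.sum_range_one]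
    rw [sum_ind_shift Gc.m Gb.m b (fun a => 1 - ubc (Gb.m + a))]
    rcases lt_or_ge b Gb.m with h | h
    · have e1 : ind (Gb.m + Gc.m) b = 0 := ind_ne (by omega)
      have e2 : ind (Gb.m + Gc.m + 1) b = 0 := ind_ne (by omega)
      rw [hbc0 b h, e1, e2, if_neg (by omega)]
      have := hbb1 b h
      linarith
    · rcases lt_or_ge b (Gb.m + Gc.m) with h' | h'
      · have e1 : ind (Gb.m + Gc.m) b = 0 := ind_ne (by omega)
        have e2 : ind (Gb.m + Gc.m + 1) b = 0 := ind_ne (by omega)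
        have e3 : Gb.m + (b - Gb.m) = b := by omega
        rw [hbb0 b h, e1, e2, if_pos ⟨h, h'⟩, e3]
        linarith
      · rw [hbb0 b h, hbc0' b h', if_neg (by omega)]
        rcases Nat.eq_or_lt_of_le h' with h'' | h''
        · subst h''
          have e2 : ind (Gb.m + Gc.m + 1) (Gb.m + Gc.m) = 0 := ind_ne (by omega)
          rw [ind_self, e2]
          linarith
        · have hb' : b = Gb.m + Gc.m + 1 := by omega
          subst hb'
          have e1 : ind (Gb.m + Gc.m) (Gb.m + Gc.m + 1) = 0 := ind_ne (by omega)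
          rw [ind_self, e1]
          linarith
  · intro i hi
    rw [join_N] at hi
    simp only [Finset.sum_range_one, hsc]
    linear_combination hX i hi + srcSpread eb Gb.N jkb (fun _ => 1) rb i * h1 +
      srcSpread ec (Gb.N + eb + Gc.N) (Gb.N + eb + jkc)
        (fun a => if a + 1 = ec then 1 - r' else 1) rc i * h2
  · simp only [Finset.sum_range_one, hsc]
    ring

end Vale.Agent.Lib.Helper9.P302Join
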